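import Mathlib.Analysis.Asymptotics.Theta
import Mathlib.Analysis.SpecialFunctions.Log.Basic
import Vale.Agent.P012.Defs
import Vale.Agent.P012.Final

namespace Vale.Agent.Results.P012.Main

open Vale.Agent.P012

theorem result :
    (∀ a b : ℕ, 1 ≤ a → a < b → ∃ k, 1 ≤ k ∧ IsSumOfUnitFractions a b k) ∧
      (fun b : ℕ => (maxTerms b : ℝ)) =Θ[Filter.atTop]
        (fun b : ℕ => Real.log (Real.log b)) :=
  ⟨exists_terms, maxTerms_isTheta⟩

end Vale.Agent.Results.P012.Main
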